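import Vale.Agent.P273.H254.Det
import Mathlib.LinearAlgebra.Determinant
import Mathlib.LinearAlgebra.Matrix.Block
import Mathlib.LinearAlgebra.Alternating.DomCoprod
import Mathlib.GroupTheory.Perm.Sign

/-!
# P273, LIM, S6-uni, abstract part

Change of the directions in an alternating function, directions given in pairs:
pairs move without sign, and the change by `-A` on the first and `A` on the second vectors of the
pairs has determinant `(-1)^n det A ^ 2`.
-/

noncomputable section

open Equiv Finset

namespace Vale.Agent.P273.H441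

variable {M : Type*} [AddCommGroup M] [Module ℝ M]

/-- change of the vectors by a square matrix -/
theorem alt_change {ι : Type*} [Fintype ι] [DecidableEq ι] (g : M [⋀^ι]→ₗ[ℝ] ℝ) (v : ι → M)
    (N : Matrix ι ι ℝ) : g (fun i => ∑ c, N i c • v c) = N.det * g v := by
  let L : (ι → ℝ) →ₗ[ℝ] M := Fintype.linearCombination ℝ v
  have h := congrArg (fun f => f (fun i => N i)) ((g.compLinearMap L).eq_smul_basis_det
    (Pi.basisFun ℝ ι))
  simp only [AlternatingMap.smul_apply, Pi.basisFun_det_apply, smul_eq_mul,
    AlternatingMap.compLinearMap_apply] at h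
  have h1 : (fun i => L (N i)) = fun i => ∑ c, N i c • v c := by
    funext i
    simp [L, Fintype.linearCombination_apply]
  have h2 : (fun i => L ((Pi.basisFun ℝ ι) i)) = v := by
    funext i
    simp [L, Fintype.linearCombination_apply, Pi.single_apply]
  have h3 : Matrix.of (fun i => N i) = N := rfl
  rw [h1, h2, h3] at h
  rw [h, mul_comm]

/-- pairs move without sign -/
theorem pair_perm {ι O : Type*} [Fintype ι] [DecidableEq ι] [Fintype O] [DecidableEq O]
    (g : M [⋀^ι]→ₗ[ℝ] ℝ) (e : ι ≃ O × Bool) (σ : Perm O) (P : O × Bool → M) :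
    g (fun i => P (σ (e i).1, (e i).2)) = g (fun i => P (e i)) := by
  have h1 : (fun i => P (σ (e i).1, (e i).2)) =
      (fun i => P (e i)) ∘ (e.symm.permCongr (prodCongrLeft fun _ : Bool => σ)) := by
    funext i
    simp only [Function.comp_apply, Equiv.permCongr_apply, Equiv.apply_symm_apply,
      Equiv.symm_symm]
    rfl
  have h2 : Perm.sign (e.symm.permCongr (prodCongrLeft fun _ : Bool => σ)) = 1 := by
    rw [Perm.sign_permCongr, Perm.sign_prodCongrLeft]
    simp [Int.units_sq]
  rw [h1, AlternatingMap.map_perm, h2, one_smul]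

/-- the same with two orders of the pairs -/
theorem pair_order {κ O : Type*} [Fintype κ] [DecidableEq κ] [Fintype O] [DecidableEq O]
    {ι : Type*} [Fintype ι] [DecidableEq ι] (p : ι ≃ κ × Bool)
    (g : M [⋀^ι]→ₗ[ℝ] ℝ) (e e' : κ ≃ O) (P : O × Bool → M) :
    g (fun i => P (e (p i).1, (p i).2)) = g (fun i => P (e' (p i).1, (p i).2)) := by
  have h := pair_perm g (p.trans (e'.prodCongr (Equiv.refl Bool))) (e'.symm.trans e) P
  have h1 : ∀ i, (p.trans (e'.prodCongr (Equiv.refl Bool))) i = (e' (p i).1, (p i).2) :=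
    fun i => rfl
  simpa only [h1, Equiv.trans_apply, Equiv.symm_apply_apply] using h

section Block

variable {K : Type*} [Fintype K] [DecidableEq K]

/-- the order of `Option K × Bool` by blocks -/
def eta : Option K × Bool ≃ (K ⊕ K) ⊕ Bool where
  toFun x := match x with
    | (some c, false) => Sum.inl (Sum.inl c)
    | (some c, true) => Sum.inl (Sum.inr c)
    | (none, b) => Sum.inr b
  invFun x := match x with
    | Sum.inl (Sum.inl c) => (some c, false)
    | Sum.inl (Sum.inr c) => (some c, true)
    | Sum.inr b => (none, b)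
  left_inv := by rintro ⟨_ | _, _ | _⟩ <;> rfl
  right_inv := by rintro ((_ | _) | _) <;> rfl

/-- the matrix of the change -/
def Nm (A : Matrix K K ℝ) (β : Bool → Bool → K → ℝ) :
    Matrix (Option K × Bool) (Option K × Bool) ℝ := fun x c =>
  match x, c with
  | (some f, false), (some c, false) => -A c f
  | (some f, true), (some c, true) => A c f
  | (none, b), (some c, b') => β b b' c
  | (none, b), (none, b') => if b = b' then 1 else 0
  | _, _ => 0

theorem det_Nm (A : Matrix K K ℝ) (β : Bool → Bool → K → ℝ) :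
    (Nm A β).det = (-1) ^ Fintype.card K * A.det ^ 2 := by
  rw [← Matrix.det_reindex_self (eta (K := K)) (Nm A β)]
  have h : Matrix.reindex (eta (K := K)) eta (Nm A β) =
      Matrix.fromBlocks (Matrix.fromBlocks (-A).transpose 0 0 A.transpose) 0
        (Matrix.of fun b x => Sum.elim (fun c => β b false c) (fun c => β b true c) x) 1 := by
    ext x y
    rcases x with (x | x) | x <;> rcases y with (y | y) | y <;> rfl
  rw [h, Matrix.det_fromBlocks_zero₁₂, Matrix.det_fromBlocks_zero₂₁, Matrix.det_transpose,
    Matrix.det_transpose, Matrix.det_neg, Matrix.det_one]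
  ring

/-- the change of the directions, over `Option K × Bool` -/
theorem change_pairs (g : M [⋀^(Option K × Bool)]→ₗ[ℝ] ℝ) (v w : Option K × Bool → M)
    (A : Matrix K K ℝ) (β : Bool → Bool → K → ℝ)
    (h1 : ∀ f, v (some f, false) = -∑ c, A c f • w (some c, false))
    (h2 : ∀ f, v (some f, true) = ∑ c, A c f • w (some c, true))
    (h3 : ∀ b, v (none, b) = w (none, b) + ∑ c, (β b false c • w (some c, false) +
      β b true c • w (some c, true))) :
    g v = (-1) ^ Fintype.card K * A.det ^ 2 * g w := by
  rw [← det_Nm A β, ← alt_change g w (Nm A β)]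
  congr 1
  funext x
  rw [← Equiv.sum_comp (eta (K := K)).symm, Fintype.sum_sum_type, Fintype.sum_sum_type]
  rcases x with ⟨_ | f, _ | _⟩
  · rw [h3]
    simp [eta, Nm, Finset.sum_add_distrib, add_comm]
  · rw [h3]
    simp [eta, Nm, Finset.sum_add_distrib, add_comm]
  · rw [h1]
    simp [eta, Nm, Finset.sum_neg_distrib]
  · rw [h2]
    simp [eta, Nm]

end Block

/-- the change of the directions given in pairs, `F` and `K` different types -/
theorem change_order {κ F K : Type*} [Fintype κ] [DecidableEq κ] [Fintype F] [DecidableEq F]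
    [Fintype K] [DecidableEq K] {ι : Type*} [Fintype ι] [DecidableEq ι] (p : ι ≃ κ × Bool)
    (g : M [⋀^ι]→ₗ[ℝ] ℝ) (eF : κ ≃ Option F) (eK : κ ≃ Option K) (f₀ : K ≃ F)
    (v : Option F × Bool → M) (w : Option K × Bool → M)
    (A : Matrix K F ℝ) (β : Bool → Bool → K → ℝ)
    (h1 : ∀ f, v (some f, false) = -∑ c, A c f • w (some c, false))
    (h2 : ∀ f, v (some f, true) = ∑ c, A c f • w (some c, true))
    (h3 : ∀ b, v (none, b) = w (none, b) + ∑ c, (β b false c • w (some c, false) +
      β b true c • w (some c, true))) :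
    g (fun i => v (eF (p i).1, (p i).2)) =
      (-1) ^ Fintype.card K * (A.submatrix id f₀).det ^ 2 *
        g (fun i => w (eK (p i).1, (p i).2)) := by
  -- the order of the gaps given by `f₀`
  rw [pair_order p g eF (eK.trans (optionCongr f₀)) v]
  let q : ι ≃ Option K × Bool := p.trans (eK.prodCongr (Equiv.refl Bool))
  have e1 : g (fun i => v ((eK.trans (optionCongr f₀)) (p i).1, (p i).2)) =
      (g.domDomCongr q) (fun x => v (optionCongr f₀ x.1, x.2)) := by
    rw [AlternatingMap.domDomCongr_apply]
    congr 1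
  have e2 : g (fun i => w (eK (p i).1, (p i).2)) = (g.domDomCongr q) w := by
    rw [AlternatingMap.domDomCongr_apply]
    congr 1
  rw [e1, e2]
  exact change_pairs (g.domDomCongr q) (fun x => v (optionCongr f₀ x.1, x.2)) w
    (A.submatrix id f₀) β (fun f => h1 (f₀ f)) (fun f => h2 (f₀ f)) (fun b => h3 b)

/-- an integer matrix with an integer inverse -/
theorem det_sq_of_inv {K F : Type*} [Fintype F] [DecidableEq F]
    [Fintype K] [DecidableEq K] (f₀ : K ≃ F) (A : Matrix K F ℤ) (B : Matrix F K ℤ)
    (h : A * B = 1) : ((A.map (Int.cast : ℤ → ℝ)).submatrix id f₀).det ^ 2 = 1 := by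
  have h1 : (A.submatrix id f₀) * (B.submatrix f₀ id) = 1 := by
    rw [Matrix.submatrix_mul_equiv, h]
    simp
  have h2 : IsUnit (A.submatrix id f₀).det := Matrix.isUnit_det_of_right_inverse h1
  have h3 : (A.submatrix id f₀).det ^ 2 = 1 := by
    have := Int.isUnit_sq h2
    exact this
  have h4 : ((A.map (Int.cast : ℤ → ℝ)).submatrix id f₀).det =
      (((A.submatrix id f₀).det : ℤ) : ℝ) := by
    have h5 : (A.map (Int.cast : ℤ → ℝ)).submatrix id f₀ =
        (Int.castRingHom ℝ).mapMatrix (A.submatrix id f₀) := by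
      ext i j; simp
    rw [h5, ← RingHom.map_det]
    simp
  rw [h4]
  exact_mod_cast h3

/-! ### the function `DT` as an alternating map of the columns -/

section DT

variable {ι H : Type*} [Fintype ι] [DecidableEq ι] [AddCommGroup H] [Module ℝ H]

/-- `DT` of a multilinear map -/
def DA (T : MultilinearMap ℝ (fun _ : ι => H) ℝ) : (ι → H) [⋀^ι]→ₗ[ℝ] ℝ :=
  MultilinearMap.alternatization
    (T.compLinearMap fun j => (LinearMap.proj j : (ι → H) →ₗ[ℝ] H))

theorem DA_apply (T : MultilinearMap ℝ (fun _ : ι => H) ℝ) (x : ι → ι → H) :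
    DA T x = ∑ π : Perm ι, Perm.sign π • T (fun j => x (π j) j) := by
  rw [DA, MultilinearMap.alternatization_apply]
  rfl

theorem DT_eq_DA {δ : Type*} (T : (ι → H) → ℝ) (T' : MultilinearMap ℝ (fun _ : ι => H) ℝ)
    (hT : ∀ x, T x = T' x) (θ : ι → δ → H) (e : ι → δ) :
    H254.DT T θ e = DA T' (fun i j => θ j (e i)) := by
  rw [DA_apply, H254.DT]
  simp only [hT]

/-- **the change of the directions in `DT`** -/
theorem DT_change {κ F K : Type*} [Fintype κ] [DecidableEq κ] [Fintype F] [DecidableEq F]
    [Fintype K] [DecidableEq K] (p : ι ≃ κ × Bool) {δ : Type*}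
    (T : (ι → H) → ℝ) (T' : MultilinearMap ℝ (fun _ : ι => H) ℝ) (hT : ∀ x, T x = T' x)
    (θ : ι → δ → H) (D : Option F × Bool → δ) (w : ι → Option K × Bool → H)
    (eF : κ ≃ Option F) (eK : κ ≃ Option K) (f₀ : K ≃ F)
    (A : Matrix K F ℝ) (β : Bool → Bool → K → ℝ)
    (h1 : ∀ f j, θ j (D (some f, false)) = -∑ c, A c f • w j (some c, false))
    (h2 : ∀ f j, θ j (D (some f, true)) = ∑ c, A c f • w j (some c, true))
    (h3 : ∀ b j, θ j (D (none, b)) = w j (none, b) + ∑ c, (β b false c • w j (some c, false) +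
      β b true c • w j (some c, true))) :
    H254.DT T θ (fun i => D (eF (p i).1, (p i).2)) =
      (-1) ^ Fintype.card K * (A.submatrix id f₀).det ^ 2 *
        H254.DT T w (fun i => (eK (p i).1, (p i).2)) := by
  rw [DT_eq_DA T T' hT, DT_eq_DA T T' hT]
  exact change_order p (DA T') eF eK f₀ (fun x j => θ j (D x)) (fun x j => w j x) A β
    (fun f => by funext j; simpa using h1 f j) (fun f => by funext j; simpa using h2 f j)
    (fun b => by funext j; simpa using h3 b j)

end DT

end Vale.Agent.P273.H441

end
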