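import Vale.Agent.P273.H441.AltP
import Vale.Agent.P273.H573.Skel

/-!
# P273, LIM, S6-uni

The value of `T` on the directions of the large gaps and of the base is its value on the directions
of the clusters and of the base.
-/

noncomputable section

namespace Vale.Agent.P273.H441

open Set Filter MeasureTheory H681 H95 H732 H973 H562 H573 Finset
open scoped Topology

section Count

variable (R : Region) (B : Finset R.Gap)

/-- the number of a large gap in its neck -/
def sg (g : R.Gap) : ℕ := cntG R B g.1 g.2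

theorem cntG_mono (k : Fin 3) {i j : ℕ} (h : i ≤ j) : cntG R B k i ≤ cntG R B k j :=
  Finset.card_le_card fun g hg => by
    rw [Finset.mem_filter] at hg ⊢
    exact ⟨hg.1, hg.2.1, hg.2.2.trans h⟩

theorem cntG_lt {g : R.Gap} (hg : g ∈ B) {i : ℕ} (h : i < (g.2 : ℕ)) :
    cntG R B g.1 i < sg R B g := by
  apply Finset.card_lt_card
  rw [Finset.ssubset_iff_of_subset]
  · refine ⟨g, by simp [hg], ?_⟩
    simp only [Finset.mem_filter, not_and, not_le]
    intro _ _
    exact h
  · intro x hx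
    rw [Finset.mem_filter] at hx ⊢
    exact ⟨hx.1, hx.2.1, hx.2.2.trans h.le⟩

/-- a large gap is before the mark of rank `i` if its number is at most the number of the cluster -/
theorem le_iff {g : R.Gap} (hg : g ∈ B) (i : ℕ) : (g.2 : ℕ) ≤ i ↔ sg R B g ≤ cntG R B g.1 i := by
  constructor
  · intro h
    exact cntG_mono R B g.1 h
  · intro h
    by_contra hc
    exact absurd (cntG_lt R B hg (not_le.1 hc)) (not_lt.2 h)

theorem sg_pos {g : R.Gap} (hg : g ∈ B) : 1 ≤ sg R B g :=
  Finset.card_pos.2 ⟨g, by simp [hg]⟩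

theorem sg_le (g : R.Gap) : sg R B g ≤ crd R B g.1 :=
  Finset.card_le_card fun x hx => by
    rw [Finset.mem_filter] at hx ⊢
    exact ⟨hx.1, hx.2.1⟩

theorem sg_inj (k : Fin 3) : Set.InjOn (sg R B) (B.filter fun g => g.1 = k : Finset R.Gap) := by
  rintro ⟨k1, g⟩ hg ⟨k2, g'⟩ hg' h
  simp only [Finset.coe_filter, Set.mem_ofPred_eq] at hg hg'
  obtain ⟨hg, rfl⟩ := hg
  obtain ⟨hg', h2⟩ := hg'
  subst h2
  rcases lt_trichotomy (g : ℕ) (g' : ℕ) with h1 | h1 | h1
  · exact absurd h (cntG_lt R B hg' h1).ne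
  · rw [Fin.ext h1]
  · exact absurd h (cntG_lt R B hg h1).ne'

theorem image_sg (k : Fin 3) : (B.filter fun g => g.1 = k).image (sg R B) =
    Finset.Icc 1 (crd R B k) := by
  apply Finset.eq_of_subset_of_card_le
  · intro x hx
    obtain ⟨g, hg, rfl⟩ := Finset.mem_image.1 hx
    rw [Finset.mem_filter] at hg
    rw [Finset.mem_Icc, ← hg.2]
    exact ⟨sg_pos R B hg.1, sg_le R B g⟩
  · rw [Finset.card_image_of_injOn (sg_inj R B k), Nat.card_Icc]
    simp [crd]

theorem sum_sg {M : Type*} [AddCommMonoid M] (k : Fin 3) (φ : ℕ → M) :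
    ∑ g ∈ B.filter (fun g => g.1 = k), φ (sg R B g) = ∑ x ∈ Finset.Icc 1 (crd R B k), φ x := by
  rw [← image_sg, Finset.sum_image (sg_inj R B k)]

theorem crd_le (k : Fin 3) : crd R B k ≤ R.n k + 1 := by
  have h : (B.filter fun g => g.1 = k).card ≤ (Finset.range (R.n k + 1)).card := by
    refine Finset.card_le_card_of_injOn (fun g => (g.2 : ℕ)) ?_ ?_
    · rintro ⟨k1, g⟩ hg
      simp only [Finset.coe_filter, Set.mem_ofPred_eq] at hg
      obtain ⟨-, rfl⟩ := hg
      simp only [Finset.coe_range, Set.mem_Iio]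
      exact g.2
    · rintro ⟨k1, g⟩ hg ⟨k2, g'⟩ hg' h
      simp only [Finset.coe_filter, Set.mem_ofPred_eq] at hg hg'
      obtain ⟨-, rfl⟩ := hg
      obtain ⟨-, h2⟩ := hg'
      subst h2
      have h3 : g = g' := Fin.ext h
      rw [h3]
  simpa [crd] using h

theorem n_le (k : Fin 3) : R.n k ≤ 14 := by
  have h := Finset.card_filter_le (Finset.univ : Finset L) (fun y => R.pl y = Sum.inl k)
  have h2 : (Finset.univ : Finset L).card = 14 := by decide
  rw [h2] at h
  exact h

theorem sum_crd : ∑ k, crd R B k = B.card := by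
  exact (Finset.card_eq_sum_card_fiberwise (f := fun g : R.Gap => g.1) (s := B)
    (t := Finset.univ) (fun x _ => by simp)).symm

theorem card_fin16 (n : ℕ) (h : n ≤ 16) :
    (∑ c : Fin 16, if 1 ≤ (c : ℕ) ∧ (c : ℕ) < n then 1 else 0) = n - 1 := by
  interval_cases n <;> decide

theorem card_Cl (h : ∀ k, 1 ≤ crd R B k) : Fintype.card (Cl R B) + 3 = B.card := by
  have h1 : Fintype.card (Cl R B) = ∑ k, (crd R B k - 1) := by
    rw [Fintype.card_subtype, Finset.card_filter, Fintype.sum_prod_type]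
    refine Finset.sum_congr rfl fun k _ => ?_
    exact card_fin16 _ ((crd_le R B k).trans (by have := n_le R k; omega))
  rw [h1, ← sum_crd, Fin.sum_univ_three, Fin.sum_univ_three]
  have := h 0
  have := h 1
  have := h 2
  omega

end Count

section Big

variable (R : Region) (m : ∀ k, Fin (R.n k + 1)) (B : Finset (W R m).Fr)

theorem last_mem_big (k : Fin 3) : (W R m).last k ∈ big R m B :=
  Finset.mem_union_right _ (Finset.mem_image_of_mem _ (Finset.mem_univ k))

theorem free_mem_big {f : (W R m).Fr} (hf : f ∈ B) : f.1 ∈ big R m B :=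
  Finset.mem_union_left _ (Finset.mem_map_of_mem _ hf)

theorem last_inj : Function.Injective (W R m).last := fun k l h => by
  have := congrArg Sigma.fst h
  exact this

theorem disj_big : Disjoint (B.map ⟨Subtype.val, Subtype.val_injective⟩ : Finset R.Gap)
    (Finset.univ.image (W R m).last) := by
  rw [Finset.disjoint_left]
  intro g hg hg'
  obtain ⟨f, -, rfl⟩ := Finset.mem_map.1 hg
  obtain ⟨k, -, hk⟩ := Finset.mem_image.1 hg'
  have h1 : (W R m).last k = f.1 := hk
  apply f.2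
  rw [← h1, (W R m).nk_last]

theorem card_big : (big R m B).card = B.card + 3 := by
  rw [big, Finset.card_union_of_disjoint (disj_big R m B), Finset.card_map,
    Finset.card_image_of_injective _ (last_inj R m)]
  simp

theorem crd_big_pos (k : Fin 3) : 1 ≤ crd R (big R m B) k :=
  Finset.card_pos.2 ⟨(W R m).last k, Finset.mem_filter.2 ⟨last_mem_big R m B k, rfl⟩⟩

theorem card_Cl_big : Fintype.card (Cl R (big R m B)) = B.card := by
  have h := card_Cl R (big R m B) (crd_big_pos R m B)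
  rw [card_big] at h
  omega

theorem card_opt (hB : B.card = 6) : Fintype.card (Option (Cl R (big R m B))) = 7 := by
  rw [Fintype.card_option, card_Cl_big, hB]

/-- sum over the free large gaps of a neck -/
theorem sum_free_big {M : Type*} [AddCommMonoid M] (k : Fin 3) (φ : R.Gap → M)
    (h0 : φ ((W R m).last k) = 0) :
    (∑ f : {f // f ∈ B}, if f.1.1.1 = k then φ f.1.1 else 0) =
      ∑ g ∈ (big R m B).filter (fun g => g.1 = k), φ g := by
  rw [Finset.sum_filter, big, Finset.sum_union (disj_big R m B), Finset.sum_map,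
    Finset.sum_image fun a _ b _ h => last_inj R m h, Finset.sum_coe_sort B
    (fun f => if f.1.1 = k then φ f.1 else 0)]
  have h1 : ∑ x : Fin 3, (if ((W R m).last x).1 = k then φ ((W R m).last x) else 0) = 0 := by
    refine Finset.sum_eq_zero fun x _ => ?_
    by_cases h : x = k
    · subst h
      rw [h0]; simp
    · exact if_neg h
  rw [h1, add_zero]
  rfl

/-- the matrix: directions of the gaps on the clusters -/
def Ai : Matrix (Cl R (big R m B)) {f // f ∈ B} ℤ := fun c f =>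
  if f.1.1.1 = c.1.1 then
    (if sg R (big R m B) f.1.1 ≤ (c.1.2 : ℕ) then 1 else 0) -
      (if sg R (big R m B) ((W R m).last c.1.1) ≤ (c.1.2 : ℕ) then 1 else 0)
  else 0

/-- its inverse -/
def Mi : Matrix {f // f ∈ B} (Cl R (big R m B)) ℤ := fun f c =>
  if f.1.1.1 = c.1.1 then
    (if sg R (big R m B) f.1.1 = (c.1.2 : ℕ) then 1 else 0) -
      (if sg R (big R m B) f.1.1 = (c.1.2 : ℕ) + 1 then 1 else 0)
  else 0

theorem Ai_mul_Mi : Ai R m B * Mi R m B = 1 := by
  ext c c'
  rw [Matrix.mul_apply, Matrix.one_apply]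
  by_cases hk : c.1.1 = c'.1.1
  · let φ : ℕ → ℤ := fun x => ((if x ≤ (c.1.2 : ℕ) then (1 : ℤ) else 0) -
            (if sg R (big R m B) ((W R m).last c.1.1) ≤ (c.1.2 : ℕ) then 1 else 0)) *
          ((if x = (c'.1.2 : ℕ) then 1 else 0) -
            (if x = (c'.1.2 : ℕ) + 1 then 1 else 0))
    have h1 : ∀ f : {f // f ∈ B}, Ai R m B c f * Mi R m B f c' =
        if f.1.1.1 = c.1.1 then φ (sg R (big R m B) f.1.1) else 0 := by
      intro f
      simp only [Ai, Mi, φ]
      rw [← hk]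
      split_ifs <;> simp
    rw [Finset.sum_congr rfl fun f _ => h1 f]
    rw [sum_free_big R m B c.1.1 (fun g => φ (sg R (big R m B) g)) (by simp [φ])]
    rw [sum_sg R (big R m B) c.1.1 φ]
    simp only [φ]
    have hc' := c'.2
    rw [← hk] at hc'
    simp only [mul_sub, Finset.sum_sub_distrib, mul_ite, mul_one, mul_zero, Finset.sum_ite_eq',
      Finset.mem_Icc]
    have i1 : 1 ≤ (c'.1.2 : ℕ) ∧ (c'.1.2 : ℕ) ≤ crd R (big R m B) c.1.1 := ⟨hc'.1, hc'.2.le⟩
    have i2 : 1 ≤ (c'.1.2 : ℕ) + 1 ∧ (c'.1.2 : ℕ) + 1 ≤ crd R (big R m B) c.1.1 :=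
      ⟨by omega, hc'.2⟩
    rw [if_pos i1, if_pos i2]
    have h2 : (c = c') ↔ (c.1.2 : ℕ) = (c'.1.2 : ℕ) := by
      constructor
      · intro h; rw [h]
      · intro h
        exact Subtype.ext (Prod.ext hk (Fin.ext h))
    rw [if_congr h2 rfl rfl]
    rcases lt_trichotomy (c.1.2 : ℕ) (c'.1.2 : ℕ) with h | h | h
    · rw [if_neg (not_le.2 h), if_neg (show ¬ (c'.1.2 : ℕ) + 1 ≤ (c.1.2 : ℕ) by omega),
        if_neg (show ¬ (c.1.2 : ℕ) = (c'.1.2 : ℕ) by omega)]
      ring
    · rw [if_pos h.ge, if_neg (show ¬ (c'.1.2 : ℕ) + 1 ≤ (c.1.2 : ℕ) by omega), if_pos h]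
      ring
    · rw [if_pos h.le, if_pos (show (c'.1.2 : ℕ) + 1 ≤ (c.1.2 : ℕ) by omega),
        if_neg (show ¬ (c.1.2 : ℕ) = (c'.1.2 : ℕ) by omega)]
      ring
  · rw [if_neg (fun h => hk (by rw [h]))]
    refine Finset.sum_eq_zero fun f _ => ?_
    simp only [Ai, Mi]
    by_cases h1 : f.1.1.1 = c.1.1
    · have h2 : ¬ f.1.1.1 = c'.1.1 := fun h => hk (h1.symm.trans h)
      rw [if_neg h2, mul_zero]
    · rw [if_neg h1, zero_mul]

end Big

section Val

variable (R : Region) (m : ∀ k, Fin (R.n k + 1)) (B : Finset (W R m).Fr) (y : Fin 3 → ℝ)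

/-- the directions of the large gaps and two directions of the base -/
def dirG (a b : Co R m) : Option {f // f ∈ B} × Bool → Co R m
  | (some f, false) => -(W R m).vec (.u f.1)
  | (some f, true) => (W R m).vec (.ph f.1)
  | (none, false) => a
  | (none, true) => b

/-- the value of the form of the core P at a direction -/
def cval (d : Co R m) : H4 := ∑ l, d.2.2.1 l • dlY y l + ∑ l, d.2.2.2.1 l • dlA y l

theorem pA_tt (k : Fin 3) : pA (H25.tt k) = H25.tt k := by
  funext i
  fin_cases k <;> fin_cases i <;> simp [pA, H25.tt]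

theorem pA_lam (k : Fin 3) : pA (H25.tt k - lamV y) = H25.tt k - lamV y := by
  simp only [map_sub, pA_tt, lamV, map_smul, map_sum]

variable {R} in
theorem mem_bef' {j : L} {k : Fin 3} (h : R.pl j = Sum.inl k) (g : R.Gap) :
    g ∈ wreg.bef R.n k (rkF R h) ↔ g.1 = k ∧ (g.2 : ℕ) ≤ R.rk j := by
  rw [wreg.mem_bef]
  constructor
  · rintro ⟨i, hi, rfl⟩
    exact ⟨rfl, hi⟩
  · obtain ⟨k', g⟩ := g
    rintro ⟨h1, h2⟩
    have h1' : k' = k := h1
    subst h1'
    exact ⟨g, h2, rfl⟩

theorem mem_bef_big {j : L} {k : Fin 3} (h : R.pl j = Sum.inl k) (Bg : Finset R.Gap) {g : R.Gap}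
    (hg : g ∈ Bg) : g ∈ wreg.bef R.n k (rkF R h) ↔ g.1 = k ∧ sg R Bg g ≤ cntG R Bg k (R.rk j) := by
  rw [mem_bef' h]
  constructor
  · rintro ⟨h1, h2⟩
    refine ⟨h1, ?_⟩
    rw [← h1]
    exact (le_iff R Bg hg _).1 h2
  · rintro ⟨h1, h2⟩
    refine ⟨h1, ?_⟩
    rw [← h1] at h2
    exact (le_iff R Bg hg _).2 h2

theorem cmp_inr {Bg : Finset R.Gap} {j : L} {c : Fin 3 × ℕ} (hc : cmp R Bg j = Sum.inr c) :
    R.pl j = Sum.inl c.1 ∧ c.2 = cntG R Bg c.1 (R.rk j) ∧ 1 ≤ c.2 ∧ c.2 < crd R Bg c.1 := by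
  unfold H573.cmp at hc
  split at hc
  · exact absurd hc (by simp)
  · rename_i k hk
    split_ifs at hc with h1 h2
    have h3 : c = (k, cntG R Bg k (R.rk j)) := (Sum.inr.inj hc).symm
    subst h3
    have h4 : cntG R Bg k (R.rk j) ≤ crd R Bg k :=
      Finset.card_le_card fun x hx => by
        rw [Finset.mem_filter] at hx ⊢
        exact ⟨hx.1, hx.2.1⟩
    exact ⟨hk, rfl, Nat.one_le_iff_ne_zero.2 h1, lt_of_le_of_ne h4 h2⟩

/-- the form of a free mark -/
theorem thL_free {Bg : Finset R.Gap} {j : L} {c : Fin 3 × ℕ} (hc : cmp R Bg j = Sum.inr c)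
    (h : R.pl j = Sum.inl c.1) (d : Co R m) :
    thL R m Bg y j d = (-(wreg.LX R.Cm R.n m c.1 (rkF R h) d).re) •
        ((2 / y c.1) • (H25.tt c.1 - lamV y)) +
      (wreg.LX R.Cm R.n m c.1 (rkF R h) d).im • ((1 / Real.pi) • H25.mm c.1) := by
  unfold thL
  rw [hc]
  simp only
  split
  · rename_i k hk
    have h1 : k = c.1 := by
      rw [h] at hk
      exact (Sum.inl.inj hk).symm
    subst h1
    simp [pA_lam]
  · rename_i k hk
    rw [h] at hk
    exact absurd hk (by simp)

/-- the form of a mark on the cores -/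
theorem thL_core {Bg : Finset R.Gap} {j : L} {s : Bool} (hc : cmp R Bg j = Sum.inl s)
    (d : Co R m) : thL R m Bg y j d = (if s then (-1 : ℝ) else 1) • cval R m y d := by
  unfold thL
  rw [hc]
  cases s
  · simp [cval]
  · simp [cval]

theorem LX_u {j : L} {k : Fin 3} (h : R.pl j = Sum.inl k) (f : {f // f ∈ B})
    (c : Cl R (big R m B)) (hk : c.1.1 = k)
    (hr : (c.1.2 : ℕ) = cntG R (big R m B) k (R.rk j)) :
    wreg.LX R.Cm R.n m k (rkF R h) (-(W R m).vec (.u f.1)) = ((Ai R m B c f : ℤ) : ℂ) := by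
  subst hk
  have h1 := mem_bef_big R h (big R m B) (free_mem_big R m B f.2)
  have h2 := mem_bef_big R h (big R m B) (last_mem_big R m B ((W R m).nk f.1.1))
  rw [← hr] at h1 h2
  have e1 : wreg.LX R.Cm R.n m c.1.1 (rkF R h) (-(W R m).vec (.u f.1)) =
      (if f.1.1 ∈ wreg.bef R.n c.1.1 (rkF R h) then 1 else 0) -
        (if (W R m).last ((W R m).nk f.1.1) ∈ wreg.bef R.n c.1.1 (rkF R h) then 1 else 0) := by
    rw [map_neg, wreg.LX, Reg.lS_vec_u]
    ring
  rw [e1, if_congr h1 rfl rfl, if_congr h2 rfl rfl, Ai]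
  by_cases h3 : f.1.1.1 = c.1.1
  · have h4 : ((W R m).last ((W R m).nk f.1.1)).1 = c.1.1 := h3
    have h5 : (W R m).nk f.1.1 = c.1.1 := h3
    rw [if_pos h3, h5]
    have h6 : ((W R m).last c.1.1).1 = c.1.1 := rfl
    simp only [h3, h6, true_and]
    push_cast
    rfl
  · have h4 : ¬ ((W R m).last ((W R m).nk f.1.1)).1 = c.1.1 := h3
    rw [if_neg h3, if_neg (fun h => h3 h.1), if_neg (fun h => h4 h.1)]
    simp

theorem LX_ph {j : L} {k : Fin 3} (h : R.pl j = Sum.inl k) (f : {f // f ∈ B})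
    (c : Cl R (big R m B)) (hk : c.1.1 = k)
    (hr : (c.1.2 : ℕ) = cntG R (big R m B) k (R.rk j)) :
    wreg.LX R.Cm R.n m k (rkF R h) ((W R m).vec (.ph f.1)) =
      ((Ai R m B c f : ℤ) : ℂ) * Complex.I := by
  rw [← LX_u R m B h f c hk hr, map_neg, wreg.LX, Reg.lS_vec_u, Reg.lS_vec_ph]
  ring

/-- directions without gap components -/
theorem LX_base {j : L} {k : Fin 3} (h : R.pl j = Sum.inl k)
    (c : Cl R (big R m B)) (hk : c.1.1 = k)
    (hr : (c.1.2 : ℕ) = cntG R (big R m B) k (R.rk j)) (d : Co R m) (h1 : d.1 = 0)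
    (h2 : d.2.1 = 0) :
    wreg.LX R.Cm R.n m k (rkF R h) d =
      (if sg R (big R m B) ((W R m).last c.1.1) ≤ (c.1.2 : ℕ) then 1 else 0) *
        (-(d.2.2.1 c.1.1 : ℂ) + (d.2.2.2.1 c.1.1 : ℂ) * Complex.I) := by
  subst hk
  have e1 : ∀ g ∈ wreg.bef R.n c.1.1 (rkF R h), (W R m).Z d g =
      if g = (W R m).last c.1.1 then -(d.2.2.1 c.1.1 : ℂ) + (d.2.2.2.1 c.1.1 : ℂ) * Complex.I
      else 0 := by
    intro g hg
    have h3 : g.1 = c.1.1 := ((mem_bef' h g).1 hg).1
    have h3' : (W R m).nk g = c.1.1 := h3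
    by_cases h4 : g ≠ (W R m).last ((W R m).nk g)
    · rw [if_neg (by rw [← h3']; exact h4), Reg.Z, Reg.ug, Reg.fg, dif_pos h4, dif_pos h4, h1, h2]
      simp
    · rw [if_pos (by rw [← h3']; exact not_not.1 h4), Reg.Z, Reg.ug, Reg.fg, dif_neg h4,
        dif_neg h4, Reg.ul, Reg.al, h1, h2, h3']
      simp
  rw [wreg.LX, Reg.lS_apply, Finset.sum_congr rfl e1, Finset.sum_ite_eq']
  have h5 := mem_bef_big R h (big R m B) (last_mem_big R m B c.1.1)
  rw [← hr] at h5
  rw [if_congr h5 rfl rfl]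
  have h6 : ((W R m).last c.1.1).1 = c.1.1 := rfl
  simp only [h6, true_and]
  split_ifs <;> simp

/-- the pairs in `Fin 14` -/
def pr14 : Fin 14 ≃ Fin 7 × Bool where
  toFun i := (⟨i / 2, by omega⟩, decide ((i : ℕ) % 2 = 1))
  invFun x := ⟨2 * x.1 + (if x.2 then 1 else 0), by split_ifs <;> omega⟩
  left_inv := by decide
  right_inv := by decide

theorem pr14_fst (i : Fin 14) : (pr14 i).1 = ⟨i / 2, by omega⟩ := rfl

theorem pr14_snd (i : Fin 14) : (pr14 i).2 = decide ((i : ℕ) % 2 = 1) := rfl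

/-- the cluster of a free mark -/
theorem exists_cl {j : L} {c : Fin 3 × ℕ} (hc : H573.cmp R (big R m B) j = Sum.inr c) :
    ∃ c₀ : Cl R (big R m B), (c₀.1.1, (c₀.1.2 : ℕ)) = c := by
  obtain ⟨-, -, h1, h2⟩ := cmp_inr R hc
  have h3 := (crd_le R (big R m B) c.1).trans (Nat.succ_le_succ (n_le R c.1))
  exact ⟨⟨(c.1, ⟨c.2, by omega⟩), h1, h2⟩, rfl⟩

theorem cl_iff {j : L} {c₀ : Cl R (big R m B)}
    (hc : H573.cmp R (big R m B) j = Sum.inr (c₀.1.1, (c₀.1.2 : ℕ))) (c : Cl R (big R m B)) :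
    H573.cmp R (big R m B) j = Sum.inr (c.1.1, (c.1.2 : ℕ)) ↔ c = c₀ := by
  rw [hc]
  constructor
  · intro h
    have h1 := Sum.inr.inj h
    have h2 := Prod.mk.inj h1
    exact Subtype.ext (Prod.ext h2.1.symm (Fin.ext h2.2.symm))
  · intro h
    rw [h]

/-- **S6-uni.** The value on the directions of the large gaps (in any order of the pairs) and two
directions of the base is the value on the clusters. -/
theorem uni (T : MT) (n : ℕ) (hB : B.card = 6) (a b : Co R m) (ha : a.1 = 0) (ha' : a.2.1 = 0)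
    (hb : b.1 = 0) (hb' : b.2.1 = 0) (e : Fin 7 ≃ Option {f // f ∈ B}) :
    H254.DT (fun x => grT n T x) (fun i (d : Co R m) => thL R m (big R m B) y (mrk i) d)
      (fun i : Fin 14 => dirG R m B a b (e ⟨i / 2, by omega⟩, decide ((i : ℕ) % 2 = 1))) =
    DTc R T n (big R m B) y (fun c => if c then cval R m y b else cval R m y a) := by
  classical
  have hcard := card_opt R m B hB
  have hK : Fintype.card (Cl R (big R m B)) = 6 := by rw [card_Cl_big, hB]
  have hF : Fintype.card (Cl R (big R m B)) = Fintype.card {f // f ∈ B} := by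
    rw [hK, Fintype.card_coe, hB]
  let f₀ : Cl R (big R m B) ≃ {f // f ∈ B} := Fintype.equivOfCardEq hF
  rw [DTc, dif_pos hcard]
  generalize grT n T = G
  obtain ⟨T', hT⟩ : ∃ T' : MultilinearMap ℝ (fun _ : Fin 14 => H4) ℝ, ∀ x, G x = T' x :=
    ⟨G.toMultilinearMap, fun _ => rfl⟩
  let w : Fin 14 → Option (Cl R (big R m B)) × Bool → H4 := fun i =>
    lgC R (big R m B) y (fun c => if c then cval R m y b else cval R m y a) (mrk i)
  let A : Matrix (Cl R (big R m B)) {f // f ∈ B} ℝ := (Ai R m B).map (Int.cast : ℤ → ℝ)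
  let β : Bool → Bool → Cl R (big R m B) → ℝ := fun s s' c =>
    (if sg R (big R m B) ((W R m).last c.1.1) ≤ (c.1.2 : ℕ) then 1 else 0) *
      (if s' then (if s then b else a).2.2.2.1 c.1.1 else (if s then b else a).2.2.1 c.1.1)
  have hlin : ∀ (x : Fin 14) (c₀ : Cl R (big R m B))
      (_ : H573.cmp R (big R m B) (mrk x) = Sum.inr (c₀.1.1, (c₀.1.2 : ℕ)))
      (q : Cl R (big R m B) → ℝ) (s : Bool),
      (∑ c, q c • w x (some c, s)) = q c₀ • (if s then (1 / Real.pi) • H25.mm c₀.1.1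
        else (2 / y c₀.1.1) • (H25.tt c₀.1.1 - lamV y)) := by
    intro x c₀ hc q s
    rw [Finset.sum_eq_single c₀]
    · simp only [w, lgC]
      rw [if_pos hc]
    · intro c _ hne
      simp only [w, lgC]
      rw [if_neg (fun h => hne ((cl_iff R m B hc c).1 h)), smul_zero]
    · intro h
      exact absurd (Finset.mem_univ _) h
  have hlin0 : ∀ (x : Fin 14) (s₀ : Bool)
      (_ : H573.cmp R (big R m B) (mrk x) = Sum.inl s₀)
      (q : Cl R (big R m B) → ℝ) (s : Bool), (∑ c, q c • w x (some c, s)) = 0 := by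
    intro x s₀ hc q s
    refine Finset.sum_eq_zero fun c _ => ?_
    simp only [w, lgC]
    rw [if_neg (by rw [hc]; simp), smul_zero]
  have h1 : ∀ f x, thL R m (big R m B) y (mrk x) (dirG R m B a b (some f, false)) =
      -∑ c, A c f • w x (some c, false) := by
    intro f x
    rcases hc : H573.cmp R (big R m B) (mrk x) with s₀ | c
    · rw [hlin0 x s₀ hc]
      simp only [dirG]
      rw [thL_core R m y hc]
      simp [cval, Reg.vec]
    · obtain ⟨c₀, rfl⟩ := exists_cl R m B hc
      obtain ⟨h2, h3, -⟩ := cmp_inr R hc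
      rw [hlin x c₀ hc]
      simp only [dirG]
      rw [thL_free R m y hc h2, LX_u R m B h2 f c₀ rfl h3]
      simp [A]
  have h2 : ∀ f x, thL R m (big R m B) y (mrk x) (dirG R m B a b (some f, true)) =
      ∑ c, A c f • w x (some c, true) := by
    intro f x
    rcases hc : H573.cmp R (big R m B) (mrk x) with s₀ | c
    · rw [hlin0 x s₀ hc]
      simp only [dirG]
      rw [thL_core R m y hc]
      simp [cval, Reg.vec]
    · obtain ⟨c₀, rfl⟩ := exists_cl R m B hc
      obtain ⟨h2, h3, -⟩ := cmp_inr R hc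
      rw [hlin x c₀ hc]
      simp only [dirG]
      rw [thL_free R m y hc h2, LX_ph R m B h2 f c₀ rfl h3]
      simp [A]
  have h3 : ∀ s x, thL R m (big R m B) y (mrk x) (dirG R m B a b (none, s)) =
      w x (none, s) + ∑ c, (β s false c • w x (some c, false) +
      β s true c • w x (some c, true)) := by
    intro s x
    rw [Finset.sum_add_distrib]
    have e0 : dirG R m B a b (none, s) = if s then b else a := by
      cases s <;> rfl
    rw [e0]
    rcases hc : H573.cmp R (big R m B) (mrk x) with s₀ | c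
    · rw [hlin0 x s₀ hc, hlin0 x s₀ hc, thL_core R m y hc]
      have e1 : w x (none, s) = (if s₀ then (-1 : ℝ) else 1) •
          (if s then cval R m y b else cval R m y a) := by
        simp only [w, lgC]
        rw [hc]
      rw [e1]
      cases s <;> simp
    · obtain ⟨c₀, rfl⟩ := exists_cl R m B hc
      obtain ⟨h2, h3, -⟩ := cmp_inr R hc
      have e1 : w x (none, s) = 0 := by
        simp only [w, lgC]
        rw [hc]
      have e2 : (if s then b else a).1 = 0 := by cases s <;> assumption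
      have e3 : (if s then b else a).2.1 = 0 := by cases s <;> assumption
      have e4 : β s false c₀ = (if sg R (big R m B) ((W R m).last c₀.1.1) ≤ (c₀.1.2 : ℕ)
          then 1 else 0) * (if s then b else a).2.2.1 c₀.1.1 := rfl
      have e5 : β s true c₀ = (if sg R (big R m B) ((W R m).last c₀.1.1) ≤ (c₀.1.2 : ℕ)
          then 1 else 0) * (if s then b else a).2.2.2.1 c₀.1.1 := rfl
      rw [hlin x c₀ hc, hlin x c₀ hc, thL_free R m y hc h2,
        LX_base R m B h2 c₀ rfl h3 (if s then b else a) e2 e3, e1, zero_add, e4, e5]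
      generalize (if s then b else a) = d
      by_cases hs : sg R (big R m B) ((W R m).last c₀.1.1) ≤ (c₀.1.2 : ℕ)
      · simp [hs]
      · simp [hs]
  have hD : (fun i : Fin 14 => dirG R m B a b (e ⟨i / 2, by omega⟩,
      decide ((i : ℕ) % 2 = 1))) = fun i => dirG R m B a b (e (pr14 i).1, (pr14 i).2) := by
    funext i; rfl
  have hE : (fun i : Fin 14 => ((Fintype.equivFinOfCardEq hcard).symm ⟨i / 2, by omega⟩,
      decide ((i : ℕ) % 2 = 1))) =
      fun i => ((Fintype.equivFinOfCardEq hcard).symm (pr14 i).1, (pr14 i).2) := by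
    funext i; rfl
  rw [hD, hE, DT_change pr14 (fun x => G x) T' hT
    (fun i (d : Co R m) => thL R m (big R m B) y (mrk i) d) (dirG R m B a b) w e
    (Fintype.equivFinOfCardEq hcard).symm f₀ A β h1 h2 h3,
    det_sq_of_inv f₀ (Ai R m B) (Mi R m B) (Ai_mul_Mi R m B), hK]
  norm_num
  rfl

theorem cval_al (i : Fin 3) : cval R m y ((-2 * Real.pi) • (W R m).vec (.al i)) =
    (-2 * Real.pi) • dlA y i := by
  simp [cval, Reg.vec, Pi.single_apply]

theorem cval_y (i : Fin 3) : cval R m y ((W R m).vec (.y i)) = dlY y i := by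
  simp [cval, Reg.vec, Pi.single_apply]

/-- the case of the tori -/
theorem uniT (T : MT) (n : ℕ) (hB : B.card = 6) (i j : Fin 3) (e : Fin 7 ≃ Option {f // f ∈ B}) :
    H254.DT (fun x => grT n T x) (fun i (d : Co R m) => thL R m (big R m B) y (mrk i) d)
      (fun l : Fin 14 => dirG R m B ((-2 * Real.pi) • (W R m).vec (.al i))
        ((-2 * Real.pi) • (W R m).vec (.al j)) (e ⟨l / 2, by omega⟩, decide ((l : ℕ) % 2 = 1))) =
    DTc R T n (big R m B) y (fun b => (-2 * Real.pi) • dlA y (if b then j else i)) := by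
  rw [uni R m B y T n hB _ _ (by simp [Reg.vec]) (by simp [Reg.vec]) (by simp [Reg.vec])
    (by simp [Reg.vec]) e]
  congr 1
  funext b
  cases b
  · exact cval_al R m y i
  · exact cval_al R m y j

/-- the case of the annuli -/
theorem uniA (T : MT) (n : ℕ) (hB : B.card = 6) (i : Fin 3) (e : Fin 7 ≃ Option {f // f ∈ B}) :
    H254.DT (fun x => grT n T x) (fun i (d : Co R m) => thL R m (big R m B) y (mrk i) d)
      (fun l : Fin 14 => dirG R m B ((W R m).vec (.y i))
        ((-2 * Real.pi) • (W R m).vec (.al i)) (e ⟨l / 2, by omega⟩, decide ((l : ℕ) % 2 = 1))) =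
    DTc R T n (big R m B) y (fun b => if b then (-2 * Real.pi) • dlA y i else dlY y i) := by
  rw [uni R m B y T n hB _ _ (by simp [Reg.vec]) (by simp [Reg.vec]) (by simp [Reg.vec])
    (by simp [Reg.vec]) e]
  congr 1
  funext b
  cases b
  · exact cval_y R m y i
  · exact cval_al R m y i

end Val

end Vale.Agent.P273.H441

end
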